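import Vale.Agent.P281.H969.TL.Core
import Vale.Agent.P281.H511.UL.Spec

/-!
# P281, project T-UL (helper383): mixed Gauss maps, the assembly
-/

open Set Filter Metric Vale.Agent.P281 Vale.Agent.P281.H713
open Vale.Agent.P272.K (Chart IsKahler IsHermitian Cm)
open Vale.Agent.P281.MF Vale.Agent.P281.ISO
open Vale.Agent.P281.H713.TZ
open Vale.Agent.P281.H64.Gen (IsSmallSet NoExc CritStmt ComplStmt)
open Vale.Agent.P281.H64.Thin (IsThinSet)
open Vale.Agent.P281.H64.TU (Tame KTame RelFormT HasFormsT)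
open scoped Topology ContDiff Manifold

set_option linter.all false

noncomputable section

namespace Vale.Agent.P281.H383.ULF

open Vale.Agent.P281.H511.UL
open Vale.Agent.P281.H969.TL (IsUnitAt IsUnitOn IsUnitF fibIn_fin two_seq hasForms_mono BoundStmt
  FamUStmt)

theorem kTame_mono {n d : ℕ} {X : Type} [TopologicalSpace X] [ChartedSpace (Cm n) X]
    (w : Chart n X → Cm n → Matrix (Fin n) (Fin n) ℂ) : TameMono (KTame (d := d) w) :=
  fun K q v₀ v₁ r r' h hr hsub v hv => h v (hsub hv)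

/-- the inequality, and the good set -/
theorem first_x (crit : CritStmt) (compl : ComplStmt) (fi : H64.TD.FibInStmt)
    (lift : H64.TU.LiftTStmt) (tame : H64.TU.TameOKStmt) (famU : FamUStmt)
    (bound : BoundStmt) (a0 : Alb0Stmt) (mix : MixStmt) (xo : XOpenStmt) (fx1 : UnitNormStmt)
    (fx2 : FibXStmt) {p d q m r : ℕ} {X Y : Type} [TopologicalSpace X]
    [ChartedSpace (Cm (p + d)) X] [TopologicalSpace Y] [ChartedSpace (Cm p) Y] {f : X → Y}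
    {Δ : Set X → ℝ} {a : Fin q → Set X → ℤ} (hd : 0 < d)
    (h : H511.Surf.IsFibration (Cm (p + d)) (Cm p) f Δ)
    {w : Chart (p + d) X → Cm (p + d) → Matrix (Fin (p + d)) (Fin (p + d)) ℂ} (hw : IsKahler w)
    {𝒟 : Finset (Set X)} (h𝒟Δ : ∀ D ∈ 𝒟, Δ D = 1) {H₀ : ℕ → Set Y}
    (hH₀ : ∀ k, IsThinSet (Cm p) (H₀ k)) (hgr : ∀ y, (∀ k, y ∉ H₀ k) →
      ∃ (F : Type) (_ : TopologicalSpace F) (_ : T2Space F) (_ : ChartedSpace (Cm d) F)
        (i : F → X), H511.Surf.IsFibre (Cm (p + d)) (Cm d) f y i ∧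
        (∀ x, (i ⁻¹' {x}).encard ≤ m) ∧ XGaussRank (p + d) d i 𝒟 a r) :
    ∃ S : Set Y, IsSmallSet (Cm p) S ∧ H64.IsProperFibration (n := p + d) (p := p) f S ∧
      ((r : ℕ∞) : WithBot ℕ∞) + TZ.S.kodF (p + d) p Δ (id : X → X) f ≤
        TZ.S.kodX (Cm (p + d)) Δ := by
  classical
  have : T2Space X := h.hausdorff.1
  have : T2Space Y := h.hausdorff.2
  have : CompactSpace X := h.compact
  have : ConnectedSpace X := h.connected
  have : IsManifold 𝓘(ℂ, Cm (p + d)) ω X := h.manifold.1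
  have : IsManifold 𝓘(ℂ, Cm p) ω Y := h.manifold.2
  have hsurj : Function.Surjective f := fun y => (h.fibres y).nonempty
  have : PreconnectedSpace Y := by
    rw [preconnectedSpace_iff_univ, ← hsurj.range_eq]
    exact isPreconnected_range h.hol.continuous
  have : Nonempty Y := by
    obtain ⟨x⟩ : Nonempty X := inferInstance
    exact ⟨f x⟩
  have hprime : ∀ D ∈ 𝒟, J.IsPrime (Cm (p + d)) D := fun D hD =>
    h.snc.2.1 D (by rw [h𝒟Δ D hD]; exact one_ne_zero)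
  have hΔ0 : ∀ D, 0 ≤ Δ D := fun D => by
    obtain ⟨c, h1, h2, -⟩ := h.snc.2.2.1 D
    rw [h1]
    exact_mod_cast h2
  obtain ⟨S₁, hS₁, hP⟩ := crit (p + d) p X Y f h.hol h.fibres
  obtain ⟨S₂, h12, hS₂, hne⟩ := fibIn_fin fi hd h.hol hP hS₁ 𝒟 hprime
  have hP₂ := hP S₂ h12 hS₂.1
  have hpre := (compl p Y S₂ hS₂).2
  have hnon : S₂ᶜ.Nonempty := (compl p Y S₂ hS₂).1.nonempty
  -- the Albanese data
  obtain ⟨g, n, Q, ι, U, π, L, hA, hF1⟩ := a0 p d m X Y f S₂ w hd h.hol hS₂.1 hP₂ hpre hw hnon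
  set a' : Fin q → Set X → ℤ := fun j D => (m.factorial : ℤ) * a j D with ha'
  -- the units
  have hUN : ∀ y ∉ S₂, ∀ (F : Type) [TopologicalSpace F] [T2Space F] [ChartedSpace (Cm d) F]
      (i : F → X), H511.Surf.IsFibre (Cm (p + d)) (Cm d) f y i → (∀ x, (i ⁻¹' {x}).encard ≤ m) →
      ∀ j (u : F → ℂ), IsUnitF (p + d) d i 𝒟 (a j) u → ∃ W : X → ℂ,
        IsUnitAt (Cm (p + d)) f 𝒟 (fun D => (m.factorial : ℤ) * a j D) y W ∧
        ∃ c : ℂ, c ≠ 0 ∧ ∀ t, (∀ D ∈ 𝒟, i t ∉ D) → W (i t) = c * u t ^ m.factorial := by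
    intro y hy F _ _ _ i hi hk j u hu
    exact fx1 p d m X Y F f S₂ 𝒟 (a j) i y u hd h.hol hS₂.1 hP₂ hprime hne hy hi hk hu
  have hXR : ∀ y ∉ S₂, (∀ k, y ∉ H₀ k) → XRank (Cm (p + d)) d f U L 𝒟 a' r y := by
    intro y hy hyH
    obtain ⟨F, tF, t2, cF, i, hi, hk, hg⟩ := hgr y hyH
    exact fx2 p d n g q m r X Y F (KTame w) f S₂ Q ι U π L 𝒟 a i y hd h.hol hS₂.1 hP₂ hA
      (hF1 y hy) hprime hne hy hi hk (fun j u hu => hUN y hy F i hi hk j u hu) hg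
  have hfreq : ∀ j, ∀ y ∉ S₂, ∃ᶠ y' in 𝓝 y, ∃ u, IsUnitAt (Cm (p + d)) f 𝒟 (a' j) y' u := by
    intro j y hy
    have h1 : H64.Gen.Cov p (⋃ k, H₀ k) := ⟨H₀, hH₀, subset_rfl⟩
    have h2 : ∃ᶠ y' in 𝓝 y, y' ∈ (⋃ k, H₀ k)ᶜ := mem_closure_iff_frequently.1 (h1.dense_compl y)
    refine (h2.and_eventually (hS₂.1.isOpen_compl.mem_nhds hy)).mono ?_
    rintro y' ⟨h3, h4⟩
    obtain ⟨F, tF, t2, cF, i, hi, hk, u, -, -, hu, -⟩ := hgr y' fun k hk => h3 (mem_iUnion.2 ⟨k, hk⟩)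
    obtain ⟨W, hW, -⟩ := hUN y' h4 F i hi hk j (u j) (hu j)
    exact ⟨W, hW⟩
  have hfam := fun j => famU p d X Y f S₂ w 𝒟 (a' j) hd hw.toIsHermitian h.hol hS₂.1 hP₂
    hprime hne (hfreq j)
  have hbd := fun j => bound p d X Y f S₂ w 𝒟 (a' j) hd h.hol hS₂.1 hP₂ hpre hw hprime hne
  let e₀ : Cm (p + d) ≃L[ℂ] (Cm p × Cm d) := ContinuousLinearEquiv.ofFinrankEq (by
    simp)
  set S' : Set Y := {y | y ∈ S₂ ∨ ¬ XRank (Cm (p + d)) d f U L 𝒟 a' r y} with hS'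
  have hsub : S₂ ⊆ S' := fun y hy => Or.inl hy
  have hcl : IsClosed S' := by
    rw [← isOpen_compl_iff, isOpen_iff_mem_nhds]
    intro y hy
    have h1 : y ∉ S₂ := fun h2 => hy (Or.inl h2)
    have h2 : XRank (Cm (p + d)) d f U L 𝒟 a' r y := by
      by_contra h3
      exact hy (Or.inr h3)
    filter_upwards [hS₂.1.isOpen_compl.mem_nhds h1, xo p d n g q r X Y (KTame w) f S₂ Q ι U π L 𝒟
      a' hd h.hol hS₂.1 hP₂ hA hprime hne hfam y h1 h2] with y' h3 h4 h5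
    rcases h5 with h5 | h5
    · exact h3 h5
    · exact h5 h4
  have hsmall : IsSmallSet (Cm p) S' := by
    obtain ⟨H₂, hH₂, hsub₂⟩ := hS₂.2
    obtain ⟨H, hH, hHs⟩ := two_seq hH₂ hH₀
    refine ⟨hcl, H, hH, fun y hy => hHs ?_⟩
    rcases hy with hy | hy
    · exact Or.inl (hsub₂ hy)
    · by_cases hyS : y ∈ S₂
      · exact Or.inl (hsub₂ hyS)
      · right
        by_contra h1
        exact hy (hXR y hyS fun k hk => h1 (mem_iUnion.2 ⟨k, hk⟩))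
  have hP' := hP S' (h12.trans hsub) hcl
  refine ⟨S', hsmall, hP', ?_⟩
  refine H303.UF.first_of fun j₂ h₂ => ?_
  exact lift (p + d) p X Y (Cm d) (KTame w) f S' e₀ Δ r j₂
    (tame (p + d) d X w hw.toIsHermitian) h.hol hsmall hP'.submersive h.snc
    (fun y hy => hasForms_mono hsub (mix p d n g q r X Y (KTame w) f S₂ Q ι U π L 𝒟 a' e₀ Δ hd
      (kTame_mono w) h.hol hS₂.1 hP₂ hA hprime hne hΔ0 h𝒟Δ hfam hbd y (fun h3 => hy (Or.inl h3))
      (by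
        by_contra h3
        exact hy (Or.inr h3)))) h₂

/-- **T-UL** from the blocks -/
theorem tul_of (crit : CritStmt) (compl : ComplStmt) (fi : H64.TD.FibInStmt)
    (lift : H64.TU.LiftTStmt) (tame : H64.TU.TameOKStmt) (famU : FamUStmt)
    (bound : BoundStmt) (a0 : Alb0Stmt) (mix : MixStmt) (xo : XOpenStmt) (fx1 : UnitNormStmt)
    (fx2 : FibXStmt) : TULStmt := by
  intro p d q m r X Y _ _ _ _ f Δ a hd h hw 𝒟 h𝒟Δ H₀ hH₀ hgr
  obtain ⟨w, hw⟩ := hw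
  have : T2Space X := h.hausdorff.1
  have : T2Space Y := h.hausdorff.2
  have : CompactSpace X := h.compact
  have : ConnectedSpace X := h.connected
  have : IsManifold 𝓘(ℂ, Cm (p + d)) ω X := h.manifold.1
  have : IsManifold 𝓘(ℂ, Cm p) ω Y := h.manifold.2
  obtain ⟨S, hS, hP, h1⟩ := first_x crit compl fi lift tame famU bound a0 mix xo fx1 fx2 hd h hw
    h𝒟Δ hH₀ hgr
  obtain ⟨H, hH, hsub⟩ := hS.2
  refine ⟨H, hH, fun y hy F _ _ i hi => ⟨h1, fun hk => ?_⟩⟩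
  have hyS : y ∉ S := by
    intro h2
    obtain ⟨k, hk⟩ := mem_iUnion.1 (hsub h2)
    exact hy k hk
  have h2 := H64.TK.finish h.hol h.fibres h.snc hP hyS hi ((add_le_add hk le_rfl).trans h1)
  exact ⟨h2.1.1, h2.2⟩

end Vale.Agent.P281.H383.ULF
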