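import Vale.Agent.P281.H383.ULF.Core
import Vale.Agent.P281.H969.TL.Fin
import Vale.Agent.P281.H349.UL.Alb0
import Vale.Agent.P281.H349.UL.FibX
import Vale.Agent.P281.H511.UL.Has
import Vale.Agent.P281.H495.UL.Log
import Vale.Agent.P281.H615.UL.MixRank
import Vale.Agent.P281.H615.UL.Open
import Vale.Agent.P281.H68.UL.Mix
import Vale.Agent.P281.H225.UL.Norm
import Vale.Agent.P281.H303.TE.Fin

/-!
# P281, project T-UL (helper383): all the blocks plugged
-/

open Set Filter Metric Vale.Agent.P281 Vale.Agent.P281.H713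
open scoped Topology ContDiff Manifold

noncomputable section

namespace Vale.Agent.P281.H383.ULF

/-- **T-UL** -/
theorem tul : H511.UL.TULStmt :=
  tul_of H969.TL.crit H383.Gen.compl H364.TD.fibIn H383.U.liftT H383.U.tameOK H969.TL.famU
    H969.TL.bound (H349.UL.alb0_of H64.TK.inputs H485.U.tameBound (H485.U.norm1 H864.K.e1))
    (H68.UL.mix_of H615.UL.mixRank (H511.UL.hasUL_of H495.UL.logExt)) H615.UL.xOpen
    H225.UL.unitNorm H349.UL.fibX

end Vale.Agent.P281.H383.ULF
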